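import Vale.Agent.P042.Data1

namespace Vale.Agent.Results.P042.C_lower7567

/-- Square-difference-free subsets of `[N]` of size at least `c * N ^ 0.7567`. -/
theorem result : ∃ c : ℝ, 0 < c ∧ ∀ N : ℕ, ∃ A ⊆ Finset.Icc 1 N,
      (∀ a ∈ A, ∀ b ∈ A, ∀ n : ℕ, 1 ≤ n → (a : ℤ) - (b : ℤ) ≠ (n : ℤ) ^ 2) ∧
        c * (N : ℝ) ^ (0.7567 : ℝ) ≤ (A.card : ℝ) :=
  Vale.Agent.P042.Data1.main

end Vale.Agent.Results.P042.C_lower7567
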