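import Vale.Agent.P042.M.Main

namespace Vale.Agent.Results.P042.X_loglog

/-- For every intersective polynomial of degree at least `2` (in particular for squares) the saving
is `exp (-c √(log N * log (log N)))`. -/
theorem result (h : Polynomial ℤ) (hdeg : 2 ≤ h.natDegree) (hlead : 0 < h.leadingCoeff)
    (hint : ∀ q : ℕ, 1 ≤ q → ∃ t : ℤ, (q : ℤ) ∣ h.eval t) :
    ∃ c : ℝ, 0 < c ∧ ∃ C : ℝ, ∀ (N : ℕ) (A : Finset ℕ), A ⊆ Finset.Icc 1 N →
      (∀ a ∈ A, ∀ b ∈ A, ∀ n : ℕ, 1 ≤ n → (a : ℤ) - (b : ℤ) = h.eval (n : ℤ) →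
        (a : ℤ) - (b : ℤ) = 0) →
      (A.card : ℝ) ≤ C * (N : ℝ) *
        Real.exp (-(c * Real.sqrt (Real.log (N : ℝ) * Real.log (Real.log (N : ℝ))))) := by
  obtain ⟨c, hc, C, H⟩ := Vale.Agent.P042.S.mainM hdeg hlead hint
  exact ⟨c, hc, C, fun N A hA hf => H N A hA fun a ha b hb n hn e =>
    Nat.cast_injective (R := ℤ) (sub_eq_zero.1 (hf a ha b hb n hn e))⟩

end Vale.Agent.Results.P042.X_loglog
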