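import Vale.Agent.P042.O.Main
import Vale.Agent.P042.O.Rat
import Vale.Agent.P042.O.Cpx

namespace Vale.Agent.Results.P042.Y_mult

/-- A power saving whenever almost every prime has a root whose multiplicity `e` makes `-1` an
`e`-th power; in particular for roots of odd multiplicity. -/
theorem result (h : Polynomial ℤ) (hdeg : 2 ≤ h.natDegree) (hlead : 0 < h.leadingCoeff)
    (hint : ∀ q : ℕ, 1 ≤ q → ∃ t : ℤ, (q : ℤ) ∣ h.eval t)
    (hcase : (∃ p₀ : ℕ, ∀ (p : ℕ) [Fact p.Prime], p₀ < p → ∃ ρ ζ : ZMod p,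
        0 < (h.map (Int.castRingHom (ZMod p))).rootMultiplicity ρ ∧
          ζ ^ (h.map (Int.castRingHom (ZMod p))).rootMultiplicity ρ = -1) ∨
      (∀ z : ℂ, (h.map (Int.castRingHom ℂ)).IsRoot z →
        Odd ((h.map (Int.castRingHom ℂ)).rootMultiplicity z)) ∨
      (∃ r : ℚ, Odd ((h.map (Int.castRingHom ℚ)).rootMultiplicity r)) ∨
      h.natDegree = 3) :
    ∃ c : ℝ, 0 < c ∧ ∃ C : ℝ, ∀ (N : ℕ) (A : Finset ℕ), A ⊆ Finset.Icc 1 N →
      (∀ a ∈ A, ∀ b ∈ A, ∀ n : ℕ, 1 ≤ n → (a : ℤ) - (b : ℤ) = h.eval (n : ℤ) →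
        (a : ℤ) - (b : ℤ) = 0) →
      (A.card : ℝ) ≤ C * (N : ℝ) ^ (1 - c) := by
  have h0 : h ≠ 0 := Polynomial.leadingCoeff_ne_zero.1 hlead.ne'
  have key : Vale.Agent.P042.S.Sav h 1 := by
    rcases hcase with h1 | h1 | ⟨r, h1⟩ | h1
    · exact Vale.Agent.P042.S.mainO hdeg hlead hint h1
    · exact Vale.Agent.P042.S.mainO hdeg hlead hint (Vale.Agent.P042.S.om_cpx h0 hint h1)
    · exact Vale.Agent.P042.S.mainO hdeg hlead hint (Vale.Agent.P042.S.om_rat h1)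
    · exact Vale.Agent.P042.S.mainCub h1 hlead hint
  obtain ⟨c, hc, C, H⟩ := key
  exact ⟨c, hc, C, fun N A hA hf => H N A hA fun a ha b hb n hn e =>
    Nat.cast_injective (R := ℤ) (sub_eq_zero.1 (hf a ha b hb n hn e))⟩

end Vale.Agent.Results.P042.Y_mult
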