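import Vale.Agent.P042.O.Main
import Vale.Agent.P042.O.Rat
import Vale.Agent.P042.O.Cpx
import Vale.Agent.P042.M.Main
import Vale.Agent.P042.Data1

namespace Vale.Agent.Results.P042.Z_best

/-- Upper bounds for all intersective polynomials, a power saving for roots of odd multiplicity,
and a lower bound for squares. -/
theorem result :
    (∀ h : Polynomial ℤ, 2 ≤ h.natDegree → 0 < h.leadingCoeff →
      (∀ q : ℕ, 1 ≤ q → ∃ t : ℤ, (q : ℤ) ∣ h.eval t) →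
      ∃ c : ℝ, 0 < c ∧ ∃ C : ℝ, ∀ (N : ℕ) (A : Finset ℕ), A ⊆ Finset.Icc 1 N →
        (∀ a ∈ A, ∀ b ∈ A, ∀ n : ℕ, 1 ≤ n → (a : ℤ) - (b : ℤ) = h.eval (n : ℤ) →
          (a : ℤ) - (b : ℤ) = 0) →
        (A.card : ℝ) ≤ C * (N : ℝ) *
          Real.exp (-(c * Real.sqrt (Real.log (N : ℝ) * Real.log (Real.log (N : ℝ)))))) ∧
    (∀ h : Polynomial ℤ, 2 ≤ h.natDegree → 0 < h.leadingCoeff →
      (∀ q : ℕ, 1 ≤ q → ∃ t : ℤ, (q : ℤ) ∣ h.eval t) →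
      ((∃ p₀ : ℕ, ∀ (p : ℕ) [Fact p.Prime], p₀ < p → ∃ ρ ζ : ZMod p,
          0 < (h.map (Int.castRingHom (ZMod p))).rootMultiplicity ρ ∧
            ζ ^ (h.map (Int.castRingHom (ZMod p))).rootMultiplicity ρ = -1) ∨
        (∀ z : ℂ, (h.map (Int.castRingHom ℂ)).IsRoot z →
          Odd ((h.map (Int.castRingHom ℂ)).rootMultiplicity z)) ∨
        (∃ r : ℚ, Odd ((h.map (Int.castRingHom ℚ)).rootMultiplicity r)) ∨
        h.natDegree = 3) →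
      ∃ c : ℝ, 0 < c ∧ ∃ C : ℝ, ∀ (N : ℕ) (A : Finset ℕ), A ⊆ Finset.Icc 1 N →
        (∀ a ∈ A, ∀ b ∈ A, ∀ n : ℕ, 1 ≤ n → (a : ℤ) - (b : ℤ) = h.eval (n : ℤ) →
          (a : ℤ) - (b : ℤ) = 0) →
        (A.card : ℝ) ≤ C * (N : ℝ) ^ (1 - c)) ∧
    ∃ c : ℝ, 0 < c ∧ ∀ N : ℕ, ∃ A ⊆ Finset.Icc 1 N,
      (∀ a ∈ A, ∀ b ∈ A, ∀ n : ℕ, 1 ≤ n → (a : ℤ) - (b : ℤ) ≠ (n : ℤ) ^ 2) ∧
        c * (N : ℝ) ^ (0.7567 : ℝ) ≤ (A.card : ℝ) := by
  refine ⟨fun h hdeg hlead hint => ?_, fun h hdeg hlead hint hcase => ?_,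
    Vale.Agent.P042.Data1.main⟩
  · obtain ⟨c, hc, C, H⟩ := Vale.Agent.P042.S.mainM hdeg hlead hint
    exact ⟨c, hc, C, fun N A hA hf => H N A hA fun a ha b hb n hn e =>
      Nat.cast_injective (R := ℤ) (sub_eq_zero.1 (hf a ha b hb n hn e))⟩
  · have h0 : h ≠ 0 := Polynomial.leadingCoeff_ne_zero.1 hlead.ne'
    have key : Vale.Agent.P042.S.Sav h 1 := by
      rcases hcase with h1 | h1 | ⟨r, h1⟩ | h1
      · exact Vale.Agent.P042.S.mainO hdeg hlead hint h1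
      · exact Vale.Agent.P042.S.mainO hdeg hlead hint (Vale.Agent.P042.S.om_cpx h0 hint h1)
      · exact Vale.Agent.P042.S.mainO hdeg hlead hint (Vale.Agent.P042.S.om_rat h1)
      · exact Vale.Agent.P042.S.mainCub h1 hlead hint
    obtain ⟨c, hc, C, H⟩ := key
    exact ⟨c, hc, C, fun N A hA hf => H N A hA fun a ha b hb n hn e =>
      Nat.cast_injective (R := ℤ) (sub_eq_zero.1 (hf a ha b hb n hn e))⟩

end Vale.Agent.Results.P042.Z_best
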